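import Mathlib

/-!
Finite bond percolation with arbitrary edge weights: expectations, independence of edge sets,
the Harris inequality, and the exploration of a cluster.
-/

open Finset

namespace Vale.Agent.P151.Glue0

variable {V E : Type} (ends : E → V × V)

/-- Two vertices joined by an open edge. -/
def openAdj (w : E → Bool) (x y : V) : Prop :=
  ∃ e, w e = true ∧ (ends e = (x, y) ∨ ends e = (y, x))

/-- The open cluster of a vertex. -/
def cluster (w : E → Bool) (x : V) : Set V := {y | Relation.ReflTransGen (openAdj ends w) x y}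

/-- The event that `a` is joined to `S`. -/
def hit (S : Finset V) (a : V) : Set (E → Bool) := {w | ∃ s ∈ S, s ∈ cluster ends w a}

/-- Only the edges with no end in `C` are kept. -/
noncomputable def rest (C : Set V) (w : E → Bool) : E → Bool := fun e => by
  classical exact if (ends e).1 ∉ C ∧ (ends e).2 ∉ C then w e else false

/-- The weight of a configuration. -/
noncomputable def wgt [Fintype E] (p : E → ℝ) (w : E → Bool) : ℝ :=
  ∏ e, if w e then p e else 1 - p e

/-- Expectation. -/
noncomputable def Ev [Fintype E] [DecidableEq E] (p : E → ℝ) (f : (E → Bool) → ℝ) : ℝ :=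
  ∑ w, wgt p w * f w

/-- The probability of an event. -/
noncomputable def Pr [Fintype E] [DecidableEq E] (p : E → ℝ) (A : Set (E → Bool)) : ℝ :=
  Ev p (A.indicator 1)

section Basics

variable [Fintype E] [DecidableEq E] {p : E → ℝ}

theorem wgt_nonneg (hp : ∀ e, p e ∈ Set.Icc 0 1) (w : E → Bool) : 0 ≤ wgt p w := by
  refine prod_nonneg fun e _ => ?_
  obtain ⟨h0, h1⟩ := hp e
  split <;> linarith

theorem wgt_pos (hp : ∀ e, p e ∈ Set.Ioo 0 1) (w : E → Bool) : 0 < wgt p w := by
  refine prod_pos fun e _ => ?_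
  obtain ⟨h0, h1⟩ := hp e
  split <;> linarith

theorem sum_wgt (p : E → ℝ) : ∑ w, wgt p w = 1 := by
  have h := Fintype.prod_sum (fun e (b : Bool) => if b then p e else 1 - p e)
  simp only [wgt]
  rw [← h]
  simp

theorem Ev_const (p : E → ℝ) (c : ℝ) : Ev p (fun _ => c) = c := by
  rw [Ev, ← sum_mul, sum_wgt, one_mul]

theorem Ev_add (p : E → ℝ) (f g : (E → Bool) → ℝ) :
    Ev p (fun w => f w + g w) = Ev p f + Ev p g := by
  simp only [Ev, mul_add, sum_add_distrib]

theorem Ev_sub (p : E → ℝ) (f g : (E → Bool) → ℝ) :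
    Ev p (fun w => f w - g w) = Ev p f - Ev p g := by
  simp only [Ev, mul_sub, sum_sub_distrib]

theorem Ev_const_mul (p : E → ℝ) (c : ℝ) (f : (E → Bool) → ℝ) :
    Ev p (fun w => c * f w) = c * Ev p f := by
  rw [Ev, Ev, mul_sum]; exact sum_congr rfl fun w _ => by ring

theorem Ev_sum {ι : Type*} (p : E → ℝ) (s : Finset ι) (f : ι → (E → Bool) → ℝ) :
    Ev p (fun w => ∑ i ∈ s, f i w) = ∑ i ∈ s, Ev p (f i) := by
  simp only [Ev, mul_sum]; exact sum_comm

theorem Ev_mono (hp : ∀ e, p e ∈ Set.Icc 0 1) {f g : (E → Bool) → ℝ} (h : ∀ w, f w ≤ g w) :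
    Ev p f ≤ Ev p g :=
  sum_le_sum fun w _ => mul_le_mul_of_nonneg_left (h w) (wgt_nonneg hp w)

theorem Ev_nonneg (hp : ∀ e, p e ∈ Set.Icc 0 1) {f : (E → Bool) → ℝ} (h : ∀ w, 0 ≤ f w) :
    0 ≤ Ev p f :=
  sum_nonneg fun w _ => mul_nonneg (wgt_nonneg hp w) (h w)

theorem eq_zero_of_Ev (hp : ∀ e, p e ∈ Set.Ioo 0 1) {f : (E → Bool) → ℝ} (h0 : ∀ w, 0 ≤ f w)
    (h : Ev p f ≤ 0) (w : E → Bool) : f w = 0 := by
  have hI : ∀ e, p e ∈ Set.Icc 0 1 := fun e => Set.Ioo_subset_Icc_self (hp e)
  have := (sum_eq_zero_iff_of_nonneg fun w _ => mul_nonneg (wgt_nonneg hI w) (h0 w)).1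
    (le_antisymm h (Ev_nonneg hI h0)) w (mem_univ w)
  exact (mul_eq_zero.1 this).resolve_left (wgt_pos hp w).ne'

theorem continuous_Ev (f : (E → Bool) → ℝ) : Continuous fun p : E → ℝ => Ev p f := by
  unfold Ev wgt
  refine continuous_finsetSum _ fun w _ =>
    (continuous_finsetProd _ fun e _ => ?_).mul continuous_const
  by_cases h : w e <;> simp [h] <;> fun_prop

/-- Independence of disjoint sets of edges. -/
theorem Ev_mul_of_indep (A : E → Prop) (f h : (E → Bool) → ℝ)
    (hf : ∀ w w', (∀ e, A e → w e = w' e) → f w = f w')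
    (hh : ∀ w w', (∀ e, ¬A e → w e = w' e) → h w = h w') :
    Ev p (fun w => f w * h w) = Ev p f * Ev p h := by
  classical
  let mix : (E → Bool) → (E → Bool) → (E → Bool) := fun w v e => if A e then w e else v e
  have hmix : ∀ w v, wgt p (mix w v) * wgt p (mix v w) = wgt p w * wgt p v := by
    intro w v
    simp only [wgt, ← prod_mul_distrib]
    refine prod_congr rfl fun e _ => ?_
    by_cases hA : A e <;> simp [mix, hA, mul_comm]
  let σ : (E → Bool) × (E → Bool) ≃ (E → Bool) × (E → Bool) :=
    { toFun := fun z => (mix z.1 z.2, mix z.2 z.1)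
      invFun := fun z => (mix z.1 z.2, mix z.2 z.1)
      left_inv := fun z => by
        refine Prod.ext ?_ ?_ <;> funext e <;> by_cases hA : A e <;> simp [mix, hA]
      right_inv := fun z => by
        refine Prod.ext ?_ ?_ <;> funext e <;> by_cases hA : A e <;> simp [mix, hA] }
  calc Ev p (fun w => f w * h w)
      = Ev p (fun w => f w * h w) * ∑ v, wgt p v := by rw [sum_wgt, mul_one]
    _ = ∑ z : (E → Bool) × (E → Bool), wgt p z.1 * wgt p z.2 * (f z.1 * h z.1) := by
        rw [Ev, sum_mul_sum, Fintype.sum_prod_type]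
        exact sum_congr rfl fun w _ => sum_congr rfl fun v _ => by ring
    _ = ∑ z : (E → Bool) × (E → Bool), wgt p z.1 * wgt p z.2 * (f z.1 * h z.2) := by
        refine (Fintype.sum_equiv σ _ _ fun z => ?_).symm
        change _ = wgt p (mix z.1 z.2) * wgt p (mix z.2 z.1)
          * (f (mix z.1 z.2) * h (mix z.1 z.2))
        rw [hmix, hf (mix z.1 z.2) z.1 fun e he => if_pos he,
          hh (mix z.1 z.2) z.2 fun e he => if_neg he]
    _ = Ev p f * Ev p h := by
        rw [Ev, Ev, sum_mul_sum, Fintype.sum_prod_type]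
        exact sum_congr rfl fun w _ => sum_congr rfl fun v _ => by ring

/-- The Harris inequality. -/
theorem harris (hp : ∀ e, p e ∈ Set.Icc 0 1) {f g : (E → Bool) → ℝ} (hf0 : ∀ w, 0 ≤ f w)
    (hg0 : ∀ w, 0 ≤ g w) (hf : Monotone f) (hg : Monotone g) :
    Ev p f * Ev p g ≤ Ev p (fun w => f w * g w) := by
  have key : ∀ a b : E → Bool, wgt p a * wgt p b ≤ wgt p (a ⊓ b) * wgt p (a ⊔ b) := by
    intro a b
    simp only [wgt, ← prod_mul_distrib]
    refine le_of_eq (prod_congr rfl fun e _ => ?_)
    cases ha : a e <;> cases hb : b e <;> simp [ha, hb, mul_comm]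
  have := fkg (μ := wgt p) (f := f) (g := g) (wgt_nonneg hp) hf0 hg0 hf hg key
  rwa [sum_wgt, one_mul] at this

end Basics

variable {ends}

theorem openAdj_symm {w : E → Bool} : ∀ {x y}, openAdj ends w x y → openAdj ends w y x :=
  fun ⟨e, h, h'⟩ => ⟨e, h, h'.symm⟩

theorem mem_cluster_self (w : E → Bool) (x : V) : x ∈ cluster ends w x :=
  Relation.ReflTransGen.refl

theorem cluster_symm {w : E → Bool} {x y : V} (h : y ∈ cluster ends w x) :
    x ∈ cluster ends w y := by
  induction h with
  | refl => exact Relation.ReflTransGen.refl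
  | tail _ h ih => exact Relation.ReflTransGen.head (openAdj_symm h) ih

theorem cluster_eq {w : E → Bool} {x y : V} (h : y ∈ cluster ends w x) :
    cluster ends w y = cluster ends w x :=
  Set.ext fun _ => ⟨fun hz => Relation.ReflTransGen.trans h hz,
    fun hz => Relation.ReflTransGen.trans (cluster_symm h) hz⟩

theorem cluster_mono {w w' : E → Bool} (h : w ≤ w') (x : V) :
    cluster ends w x ⊆ cluster ends w' x := fun _ hy => by
  refine Relation.ReflTransGen.mono (fun a b hab => ?_) _ _ hy
  obtain ⟨e, he, he'⟩ := hab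
  have := h e
  rw [he] at this
  exact ⟨e, le_antisymm le_top this, he'⟩

theorem cluster_bot (x : V) : cluster ends (fun _ => false) x = {x} := by
  refine Set.ext fun y => ⟨fun h => ?_, fun h => by
    rw [Set.mem_singleton_iff.1 h]; exact mem_cluster_self _ x⟩
  induction h with
  | refl => rfl
  | tail _ h _ => exact absurd h.choose_spec.1 (by simp)

theorem rest_le (C : Set V) (w : E → Bool) : rest ends C w ≤ w := fun e => by
  simp only [rest]; split <;> simp

theorem rest_anti {C D : Set V} (h : C ⊆ D) (w : E → Bool) : rest ends D w ≤ rest ends C w := by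
  intro e
  simp only [rest]
  split_ifs with h1 h2 h2
  · exact le_rfl
  · exact absurd ⟨fun hc => h1.1 (h hc), fun hc => h1.2 (h hc)⟩ h2
  all_goals exact Bool.false_le _

/-- A cluster outside a saturated set does not see the edges at that set. -/
theorem cluster_rest {w : E → Bool} {x : V} {C : Set V}
    (h : ∀ y ∈ cluster ends w x, y ∉ C) : cluster ends (rest ends C w) x = cluster ends w x := by
  refine (cluster_mono (rest_le C w) x).antisymm fun y hy => ?_
  induction hy with
  | refl => exact mem_cluster_self _ x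
  | @tail b c hb hbc ih =>
    obtain ⟨e, he, he'⟩ := hbc
    refine Relation.ReflTransGen.tail ih ⟨e, ?_, he'⟩
    have h1 := h b hb
    have h2 := h c (Relation.ReflTransGen.tail hb ⟨e, he, he'⟩)
    rcases he' with r | r <;> simp [rest, r, h1, h2, he]

/-- The event that a cluster equals a given set depends only on the edges at that set. -/
theorem cluster_local {w w' : E → Bool} {x : V} {C : Set V}
    (h : ∀ e, (ends e).1 ∈ C ∨ (ends e).2 ∈ C → w e = w' e) (hw : cluster ends w x = C) :
    cluster ends w' x = C := by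
  apply Set.Subset.antisymm
  · intro y hy
    induction hy with
    | refl => rw [← hw]; exact mem_cluster_self w x
    | @tail b c hb hbc ih =>
      obtain ⟨e, he, he'⟩ := hbc
      have hm : (ends e).1 ∈ C ∨ (ends e).2 ∈ C := by
        rcases he' with r | r <;> simp [r, ih]
      rw [← hw] at ih ⊢
      exact Relation.ReflTransGen.tail ih ⟨e, (h e hm).trans he, he'⟩
  · intro y hy
    rw [← hw] at hy
    induction hy with
    | refl => exact mem_cluster_self w' x
    | @tail b c hb hbc ih =>
      obtain ⟨e, he, he'⟩ := hbc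
      have hb' : b ∈ C := hw ▸ hb
      have hm : (ends e).1 ∈ C ∨ (ends e).2 ∈ C := by
        rcases he' with r | r <;> simp [r, hb']
      exact Relation.ReflTransGen.tail ih ⟨e, (h e hm).symm.trans he, he'⟩

/-- Exploring a cluster leaves the edges away from it fresh. -/
theorem Ev_explore [Fintype E] [DecidableEq E] [Fintype V] (p : E → ℝ) (x : V)
    (Φ : Set V → (E → Bool) → ℝ) :
    Ev p (fun w => Φ (cluster ends w x) (rest ends (cluster ends w x) w))
      = Ev p (fun w => Ev p (fun v => Φ (cluster ends w x) (rest ends (cluster ends w x) v))) := by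
  classical
  have split : ∀ Ψ : (E → Bool) → Set V → ℝ, (fun w => Ψ w (cluster ends w x))
      = fun w => ∑ C : Set V, (if cluster ends w x = C then (1 : ℝ) else 0) * Ψ w C := fun Ψ => by
    funext w; simp
  rw [split (fun w C => Φ C (rest ends C w)),
    split (fun _ C => Ev p fun v => Φ C (rest ends C v)), Ev_sum, Ev_sum]
  refine sum_congr rfl fun C _ => ?_
  rw [Ev_mul_of_indep (fun e => (ends e).1 ∈ C ∨ (ends e).2 ∈ C) _ _ ?_ ?_]
  · simp only [mul_comm _ (Ev p fun v => Φ C (rest ends C v))]
    rw [Ev_const_mul, mul_comm]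
  · intro w w' h
    have : cluster ends w x = C ↔ cluster ends w' x = C :=
      ⟨cluster_local h, cluster_local fun e he => (h e he).symm⟩
    simp only [this]
  · intro w w' h
    congr 1
    funext e
    simp only [rest]
    split_ifs with hc
    · exact h e (by rintro (r | r) <;> [exact hc.1 r; exact hc.2 r])
    · rfl

end Vale.Agent.P151.Glue0
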