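import Vale.Agent.P151.Glue0.Basic

/-!
The connection inequality: gluing without sprinkling.
-/

open Finset

namespace Vale.Agent.P151.Glue0

variable {V E : Type} [Fintype V] [DecidableEq V] [Fintype E] [DecidableEq E] (ends : E → V × V)

/-- The largest value of `g` on the clusters of the points of `S`. -/
noncomputable def top (S : Finset V) (hS : S.Nonempty) (g : Set V → ℝ) (w : E → Bool) : ℝ :=
  S.sup' hS fun t => g (cluster ends w t)

/-- The excess over `g C` available outside `C`. -/
noncomputable def exc (S : Finset V) (hS : S.Nonempty) (g : Set V → ℝ) (C : Set V)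
    (v : E → Bool) : ℝ := by
  classical exact S.sup' hS fun t => if t ∈ C then 0 else max (g (cluster ends v t) - g C) 0

/-- Its expectation in the graph without the edges at `C`. -/
noncomputable def uu (p : E → ℝ) (S : Finset V) (hS : S.Nonempty) (g : Set V → ℝ) (C : Set V) :
    ℝ :=
  Ev p fun v => exc ends S hS g C (rest ends C v)

variable {ends} {S : Finset V} {p : E → ℝ} (hS : S.Nonempty) {g : Set V → ℝ}

theorem exc_nonneg (C : Set V) (v : E → Bool) : 0 ≤ exc ends S hS g C v := by
  classical
  obtain ⟨t, ht⟩ := id hS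
  refine le_trans ?_ (le_sup' _ ht)
  split <;> simp

theorem exc_anti (hg : Monotone g) {C D : Set V} (h : C ⊆ D) (v : E → Bool) :
    exc ends S hS g D (rest ends D v) ≤ exc ends S hS g C (rest ends C v) := by
  classical
  refine sup'_le _ _ fun t ht => ?_
  split_ifs with hD
  · exact exc_nonneg hS C _
  · refine le_trans ?_ (le_sup' _ ht)
    rw [if_neg fun hC => hD (h hC)]
    exact max_le_max (sub_le_sub (hg (cluster_mono (rest_anti h v) t)) (hg h)) le_rfl

theorem exc_le_top (hg : Monotone g) (hg0 : ∀ C, 0 ≤ g C) (C : Set V) (v : E → Bool) :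
    exc ends S hS g C (rest ends C v) ≤ top ends S hS g v := by
  classical
  refine sup'_le _ _ fun t ht => le_trans ?_ (le_sup' _ ht)
  split_ifs
  · exact hg0 _
  · refine max_le ?_ (hg0 _)
    linarith [hg (cluster_mono (ends := ends) (rest_le (ends := ends) C v) t), hg0 C]

theorem top_eq (x : V) (w : E → Bool) (hx : ∃ t ∈ S, t ∈ cluster ends w x) :
    top ends S hS g w = g (cluster ends w x)
      + exc ends S hS g (cluster ends w x) (rest ends (cluster ends w x) w) := by
  classical
  obtain ⟨t₀, ht₀, h₀⟩ := hx
  have hout : ∀ t ∉ cluster ends w x,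
      cluster ends (rest ends (cluster ends w x) w) t = cluster ends w t := fun t ht =>
    cluster_rest fun y hy hy' => ht (cluster_eq hy' ▸ cluster_symm hy)
  apply le_antisymm
  · refine sup'_le _ _ fun t ht => ?_
    by_cases hC : t ∈ cluster ends w x
    · rw [cluster_eq hC]
      linarith [exc_nonneg hS (cluster ends w x) (rest ends (cluster ends w x) w)
        (g := g) (ends := ends)]
    · have := le_sup' (fun t => if t ∈ cluster ends w x then (0 : ℝ)
        else max (g (cluster ends (rest ends (cluster ends w x) w) t) - g (cluster ends w x)) 0) ht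
      simp only [if_neg hC, hout t hC] at this
      change max _ _ ≤ exc ends S hS g _ _ at this
      linarith [le_max_left (g (cluster ends w t) - g (cluster ends w x)) 0]
  · have h1 : g (cluster ends w x) ≤ top ends S hS g w := by
      have := le_sup' (fun t => g (cluster ends w t)) ht₀
      simp only [cluster_eq h₀] at this
      exact this
    suffices exc ends S hS g (cluster ends w x) (rest ends (cluster ends w x) w)
        ≤ top ends S hS g w - g (cluster ends w x) by linarith
    refine sup'_le _ _ fun t ht => ?_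
    split_ifs with hC
    · linarith
    · have : g (cluster ends w t) ≤ top ends S hS g w := le_sup' (fun t => g (cluster ends w t)) ht
      rw [hout t hC]
      exact max_le (by linarith) (by linarith)

theorem Ev_uu (x : V) :
    Ev p (fun w => uu ends p S hS g (cluster ends w x))
      = Ev p (fun w => exc ends S hS g (cluster ends w x) (rest ends (cluster ends w x) w)) :=
  (Ev_explore p x (fun C v => exc ends S hS g C v)).symm

theorem Ev_uu_self {t : V} (ht : t ∈ S) :
    Ev p (fun w => uu ends p S hS g (cluster ends w t))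
      = Ev p (top ends S hS g) - Ev p (fun w => g (cluster ends w t)) := by
  rw [Ev_uu, ← Ev_sub]
  congr 1
  funext w
  rw [top_eq hS t w ⟨t, ht, mem_cluster_self w t⟩]
  ring

theorem Ev_uu_hit (a : V) :
    Ev p (fun w => (hit ends S a).indicator 1 w * uu ends p S hS g (cluster ends w a))
      = Ev p (fun w => (hit ends S a).indicator 1 w * top ends S hS g w)
        - Ev p (fun w => (hit ends S a).indicator 1 w * g (cluster ends w a)) := by
  classical
  have h := Ev_explore (ends := ends) p a fun C v =>
    (if ∃ s ∈ S, s ∈ C then (1 : ℝ) else 0) * exc ends S hS g C v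
  simp only [Ev_const_mul] at h
  have e : ∀ w, (hit ends S a).indicator (1 : (E → Bool) → ℝ) w
      = if ∃ s ∈ S, s ∈ cluster ends w a then (1 : ℝ) else 0 := fun w => by
    simp [Set.indicator_apply, hit]
  simp only [e, uu]
  rw [← h, ← Ev_sub]
  congr 1
  funext w
  split_ifs with hw
  · rw [top_eq hS a w hw]; ring
  · ring

theorem indicator_hit_mono (a : V) (S : Finset V) :
    Monotone ((hit ends S a).indicator (1 : (E → Bool) → ℝ)) := by
  intro w w' h
  by_cases hw : w ∈ hit ends S a
  · obtain ⟨s, hs, hs'⟩ := hw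
    rw [Set.indicator_of_mem (show w ∈ hit ends S a from ⟨s, hs, hs'⟩),
      Set.indicator_of_mem (show w' ∈ hit ends S a from ⟨s, hs, cluster_mono h a hs'⟩)]
    exact le_rfl
  · rw [Set.indicator_of_notMem hw]
    exact Set.indicator_nonneg (fun _ _ => zero_le_one) _

theorem gluing_open (hp : ∀ e, p e ∈ Set.Ioo 0 1) (a : V) :
    ∀ (S : Finset V) (F ψ : Set V → ℝ), Monotone F → (∀ C, 0 ≤ F C) →
      (∀ C, ∀ s ∈ S, s ∈ C → ψ C ≤ Ev p (fun w => F (cluster ends w s))) →
      Ev p (fun w => (hit ends S a).indicator 1 w * ψ (cluster ends w a))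
        ≤ Ev p (fun w => (hit ends S a).indicator 1 w * F (cluster ends w a)) := by
  intro S
  induction S using Finset.strongInduction with
  | H S IH =>
  intro F ψ hF hF0 hψ
  classical
  have hI : ∀ e, p e ∈ Set.Icc (0 : ℝ) 1 := fun e => Set.Ioo_subset_Icc_self (hp e)
  rcases S.eq_empty_or_nonempty with rfl | hS
  · simp [hit]
  let H : (E → Bool) → ℝ := (hit ends S a).indicator 1
  have H0 : ∀ w, 0 ≤ H w := fun w => Set.indicator_nonneg (fun _ _ => zero_le_one) _
  let φ : (Set V → ℝ) → ℝ := fun g => Ev p fun w => H w * g (cluster ends w a)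
  let X : (Set V → ℝ) → ℝ := fun g => Ev p (top ends S hS g)
  let 𝒢 : Set (Set V → ℝ) := {g | Monotone g ∧ (∀ C, g C ∈ Set.Icc 0 (F Set.univ)) ∧
    ∀ t ∈ S, Ev p (fun w => g (cluster ends w t)) = Ev p (fun w => F (cluster ends w t))}
  have cm : ∀ t, Continuous fun g : Set V → ℝ => Ev p (fun w => g (cluster ends w t)) := fun t =>
    continuous_finsetSum _ fun w _ => continuous_const.mul (continuous_apply _)
  have cφ : Continuous φ :=
    continuous_finsetSum _ fun w _ => continuous_const.mul (continuous_const.mul (continuous_apply _))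
  have cX : Continuous X :=
    continuous_finsetSum _ fun w _ => continuous_const.mul
      (Continuous.finset_sup'_apply hS fun t _ => continuous_apply _)
  have hcl : IsClosed {g : Set V → ℝ | Monotone g ∧
      ∀ t ∈ S, Ev p (fun w => g (cluster ends w t)) = Ev p (fun w => F (cluster ends w t))} := by
    refine IsClosed.inter isClosed_monotone ?_
    have : {g : Set V → ℝ | ∀ t ∈ S, Ev p (fun w => g (cluster ends w t))
        = Ev p (fun w => F (cluster ends w t))} = ⋂ t, ⋂ (_ : t ∈ S),
          {g | Ev p (fun w => g (cluster ends w t)) = Ev p (fun w => F (cluster ends w t))} := by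
      ext g; simp
    show IsClosed {g : Set V → ℝ | ∀ t ∈ S, Ev p (fun w => g (cluster ends w t))
        = Ev p (fun w => F (cluster ends w t))}
    rw [this]
    exact isClosed_iInter fun t => isClosed_iInter fun _ => isClosed_eq (cm t) continuous_const
  have hK : IsCompact 𝒢 :=
    (isCompact_univ_pi fun _ => isCompact_Icc (a := (0 : ℝ)) (b := F Set.univ)).of_isClosed_subset
      (by
        have : 𝒢 = {g : Set V → ℝ | Monotone g ∧ ∀ t ∈ S, Ev p (fun w => g (cluster ends w t))
            = Ev p (fun w => F (cluster ends w t))}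
            ∩ Set.univ.pi fun _ => Set.Icc (0 : ℝ) (F Set.univ) := by
          ext g; simp only [𝒢, Set.mem_ofPred_eq, Set.mem_inter_iff, Set.mem_univ_pi]; tauto
        rw [this]
        exact hcl.inter (isClosed_set_pi fun _ _ => isClosed_Icc))
      (fun g hg => Set.mem_univ_pi.2 hg.2.1)
  have hFG : F ∈ 𝒢 := ⟨hF, fun C => ⟨hF0 C, hF (Set.subset_univ C)⟩, fun _ _ => rfl⟩
  obtain ⟨L₀, hL₀, hmin₀⟩ := hK.exists_isMinOn ⟨F, hFG⟩ cφ.continuousOn
  obtain ⟨L, ⟨hL, hLφ⟩, hmin⟩ := (hK.inter_right (isClosed_le cφ (continuous_const (y := φ L₀)))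
    ).exists_isMinOn ⟨L₀, hL₀, show φ L₀ ≤ φ L₀ from le_refl _⟩ cX.continuousOn
  obtain ⟨hLm, hLb, hLt⟩ := hL
  set u := uu ends p S hS L
  have u0 : ∀ C, 0 ≤ u C := fun C => Ev_nonneg hI fun v => exc_nonneg hS _ _
  have uanti : ∀ {C D}, C ⊆ D → u D ≤ u C := fun h => Ev_mono hI fun v => exc_anti hS hLm h v
  have uX : ∀ C, u C ≤ X L := fun C =>
    Ev_mono hI fun v => exc_le_top hS hLm (fun C => (hLb C).1) C v
  have XB : X L ≤ F Set.univ := by
    refine le_trans (Ev_mono hI fun w => ?_) (Ev_const p _).le
    exact sup'_le _ _ fun t _ => (hLb _).2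
  let T : Set V → ℝ := fun C => X L - u C
  have hT : T ∈ 𝒢 := by
    refine ⟨fun C D h => sub_le_sub_left (uanti h) _, fun C => ⟨sub_nonneg.2 (uX C), ?_⟩,
      fun t ht => ?_⟩
    · have := u0 C; change X L - u C ≤ _; linarith
    · rw [Ev_sub, Ev_const, Ev_uu_self hS ht, ← hLt t ht]
      ring
  have hTφ : φ T ≤ φ L := by
    have e : φ T = X L * Ev p H - Ev p (fun w => H w * u (cluster ends w a)) := by
      simp only [φ, T, mul_sub, Ev_sub, mul_comm (H _) (X L), Ev_const_mul]
    have hh := Ev_uu_hit (ends := ends) (p := p) (g := L) hS a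
    have htop : Monotone (top ends S hS L) := fun w w' h =>
      sup'_le _ _ fun t ht => (hLm (cluster_mono h t)).trans (le_sup' (fun t => L (cluster ends w' t)) ht)
    have htop0 : ∀ w, 0 ≤ top ends S hS L w := fun w =>
      le_trans (hLb _).1 (le_sup' (fun t => L (cluster ends w t)) hS.choose_spec)
    have hah := harris hI H0 htop0 (indicator_hit_mono a S) htop
    rw [e]
    change X L * Ev p H - Ev p (fun w => (hit ends S a).indicator 1 w * uu ends p S hS L
      (cluster ends w a)) ≤ _
    rw [hh]
    simp only [X, φ, H] at hah ⊢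
    linarith [mul_comm (Ev p (top ends S hS L)) (Ev p ((hit ends S a).indicator 1))]
  have hX : X L ≤ X T := hmin ⟨hT, hTφ.trans hLφ⟩
  -- some point of `S` carries no excess when everything is closed
  have hinf : Ev p (fun w => S.inf' hS fun t => u (cluster ends w t)) ≤ 0 := by
    have e : ∀ w, top ends S hS T w = X L - S.inf' hS fun t => u (cluster ends w t) := by
      intro w
      apply le_antisymm
      · exact sup'_le _ _ fun t ht =>
          sub_le_sub_left (inf'_le (fun t => u (cluster ends w t)) ht) (X L)
      · obtain ⟨t, ht, he⟩ := exists_mem_eq_inf' hS fun t => u (cluster ends w t)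
        rw [he]
        exact le_sup' (fun t => T (cluster ends w t)) ht
    have : X T = X L - Ev p (fun w => S.inf' hS fun t => u (cluster ends w t)) := by
      change Ev p (top ends S hS T) = _
      rw [funext e, Ev_sub, Ev_const]
    linarith
  obtain ⟨s₁, hs₁, hus⟩ := exists_mem_eq_inf' hS fun t => u (cluster ends (fun _ => false) t)
  have hu1 : u {s₁} = 0 := by
    have := eq_zero_of_Ev hp (fun w => le_inf' hS _ fun t _ => u0 _) hinf (fun _ => false)
    rwa [hus, cluster_bot] at this
  have hL1 : ∀ (w : E → Bool) t, t ∈ S → L (cluster ends w t) ≤ L (cluster ends w s₁) := by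
    intro w t ht
    by_cases hc : t ∈ cluster ends w s₁
    · rw [cluster_eq hc]
    have h0 := eq_zero_of_Ev hp (fun v => exc_nonneg hS _ _) hu1.le w
    have hts : t ∉ ({s₁} : Set V) := fun e => hc (by
      rw [Set.mem_singleton_iff.1 e]; exact mem_cluster_self w s₁)
    have this : max (L (cluster ends (rest ends {s₁} w) t) - L {s₁}) 0
        ≤ exc ends S hS L {s₁} (rest ends {s₁} w) := by
      refine le_trans ?_ (le_sup' _ ht)
      rw [if_neg hts]
    rw [h0, cluster_rest (x := t) (fun y hy e => hc (cluster_symm (show s₁ ∈ cluster ends w t by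
      rw [← Set.mem_singleton_iff.1 e]; exact hy)))]
      at this
    have h1 : L {s₁} ≤ L (cluster ends w s₁) :=
      hLm (Set.singleton_subset_iff.2 (mem_cluster_self w s₁))
    linarith [le_max_left (L (cluster ends w t) - L {s₁}) 0]
  have hXs : X L = Ev p (fun w => F (cluster ends w s₁)) := by
    rw [← hLt s₁ hs₁]
    change Ev p (top ends S hS L) = _
    congr 1
    funext w
    exact le_antisymm (sup'_le _ _ (hL1 w)) (le_sup' (fun t => L (cluster ends w t)) hs₁)
  have hT1 : ∀ C, s₁ ∈ C → T C = X L := fun C hC => by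
    have := le_antisymm ((uanti (Set.singleton_subset_iff.2 hC)).trans hu1.le) (u0 C)
    simp only [T, this, sub_zero]
  -- induction without that point
  have IH' := IH (S.erase s₁) (erase_ssubset hs₁) T ψ hT.1 (fun C => (hT.2.1 C).1)
    fun C s hs hC => (hψ C s (mem_of_mem_erase hs) hC).trans (hT.2.2 s (mem_of_mem_erase hs)).ge
  have step : Ev p (fun w => H w * ψ (cluster ends w a)) ≤ φ T := by
    let H' : (E → Bool) → ℝ := (hit ends (S.erase s₁) a).indicator 1
    have key : ∀ w, H w * (ψ (cluster ends w a) - T (cluster ends w a))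
        ≤ H' w * (ψ (cluster ends w a) - T (cluster ends w a)) := by
      intro w
      by_cases h' : w ∈ hit ends (S.erase s₁) a
      · have : w ∈ hit ends S a := h'.imp fun s hs => ⟨mem_of_mem_erase hs.1, hs.2⟩
        simp [H, H', Set.indicator_of_mem h', Set.indicator_of_mem this]
      · by_cases h : w ∈ hit ends S a
        · obtain ⟨s, hs, hsC⟩ := h
          obtain rfl : s = s₁ := by
            by_contra hne
            exact h' ⟨s, mem_erase.2 ⟨hne, hs⟩, hsC⟩
          simp only [H, H', Set.indicator_of_mem (show w ∈ hit ends S a from ⟨s, hs, hsC⟩),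
            Set.indicator_of_notMem h', Pi.one_apply, one_mul, zero_mul]
          have := hψ _ s hs hsC
          rw [← hXs, ← hT1 _ hsC] at this
          linarith
        · simp [H, H', Set.indicator_of_notMem h, Set.indicator_of_notMem h']
    have := Ev_mono hI key
    simp only [mul_sub, Ev_sub] at this
    simp only [φ, H'] at this ⊢
    linarith
  exact step.trans ((hTφ.trans hLφ).trans (hmin₀ hFG))

/-- The connection inequality, for edge probabilities in the closed unit interval. -/
theorem gluing (hp : ∀ e, p e ∈ Set.Icc 0 1) (a : V) (S : Finset V) {F ψ : Set V → ℝ}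
    (hF : Monotone F)
    (hψ : ∀ C, ∀ s ∈ S, s ∈ C → ψ C ≤ Ev p (fun w => F (cluster ends w s))) :
    Ev p (fun w => (hit ends S a).indicator 1 w * ψ (cluster ends w a))
      ≤ Ev p (fun w => (hit ends S a).indicator 1 w * F (cluster ends w a)) := by
  classical
  let F₀ : Set V → ℝ := fun C => F C - F ∅
  have hF₀ : Monotone F₀ := fun C D h => sub_le_sub_right (hF h) _
  have h00 : ∀ C, 0 ≤ F₀ C := fun C => sub_nonneg.2 (hF (Set.empty_subset C))
  let Ψ : (E → ℝ) → Set V → ℝ := fun q C =>
    if h : (S.filter fun s => s ∈ C).Nonempty then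
      (S.filter fun s => s ∈ C).inf' h fun s => Ev q (fun w => F₀ (cluster ends w s))
    else 0
  have key : ∀ q ∈ Set.univ.pi (fun _ : E => Set.Ioo (0 : ℝ) 1),
      Ev q (fun w => (hit ends S a).indicator 1 w * Ψ q (cluster ends w a))
        ≤ Ev q (fun w => (hit ends S a).indicator 1 w * F₀ (cluster ends w a)) := fun q hq =>
    gluing_open (fun e => hq e (Set.mem_univ e)) a S F₀ (Ψ q) hF₀ h00 fun C s hs hC => by
      have hne : (S.filter fun s => s ∈ C).Nonempty := ⟨s, mem_filter.2 ⟨hs, hC⟩⟩
      simp only [Ψ, dif_pos hne]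
      exact inf'_le _ (mem_filter.2 ⟨hs, hC⟩)
  have cl : p ∈ closure (Set.univ.pi (fun _ : E => Set.Ioo (0 : ℝ) 1)) := by
    rw [closure_pi_set]
    exact fun e _ => by rw [closure_Ioo zero_ne_one]; exact hp e
  have cΨ : ∀ C, Continuous fun q => Ψ q C := by
    intro C
    by_cases h : (S.filter fun s => s ∈ C).Nonempty
    · simp only [Ψ, dif_pos h]
      exact Continuous.finset_inf'_apply h fun s _ => continuous_Ev _
    · simp only [Ψ, dif_neg h]
      exact continuous_const
  have main := le_on_closure key
    (by
      unfold Ev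
      exact (continuous_finsetSum _ fun w _ =>
        ((show Continuous fun q => wgt q w by
          unfold wgt
          refine continuous_finsetProd _ fun e _ => ?_
          by_cases h : w e <;> simp [h] <;> fun_prop).mul
            (continuous_const.mul (cΨ _)))).continuousOn)
    (continuous_Ev _).continuousOn cl
  have comp : ∀ w, (hit ends S a).indicator (1 : (E → Bool) → ℝ) w * ψ (cluster ends w a)
      ≤ (hit ends S a).indicator 1 w * (Ψ p (cluster ends w a) + F ∅) := by
    intro w
    by_cases h : w ∈ hit ends S a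
    · simp only [Set.indicator_of_mem h, Pi.one_apply, one_mul]
      have hne : (S.filter fun s => s ∈ cluster ends w a).Nonempty :=
        h.imp fun s hs => mem_filter.2 hs
      simp only [Ψ, dif_pos hne]
      rw [← sub_le_iff_le_add]
      refine le_inf' hne _ fun s hs => ?_
      have := hψ _ s (mem_filter.1 hs).1 (mem_filter.1 hs).2
      simp only [F₀, Ev_sub, Ev_const]
      linarith
    · simp [Set.indicator_of_notMem h]
  refine (Ev_mono hp comp).trans ?_
  simp only [F₀, mul_add, mul_sub, Ev_add, Ev_sub] at main ⊢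
  linarith

/-- Constant lower bound form. -/
theorem gluing_const (hp : ∀ e, p e ∈ Set.Icc 0 1) (a : V) (S : Finset V) {F : Set V → ℝ}
    (hF : Monotone F) {m : ℝ} (hm : ∀ s ∈ S, m ≤ Ev p (fun w => F (cluster ends w s))) :
    m * Pr p (hit ends S a)
      ≤ Ev p (fun w => (hit ends S a).indicator 1 w * F (cluster ends w a)) := by
  have := gluing (ends := ends) hp a S hF (ψ := fun _ => m) fun _ s hs _ => hm s hs
  rw [Pr, ← Ev_const_mul]
  simpa only [mul_comm] using this

/-- Connection through an intermediate set. -/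
theorem connect_glue (hp : ∀ e, p e ∈ Set.Icc 0 1) (a : V) (S B : Finset V) {m : ℝ}
    (hm : ∀ s ∈ S, m ≤ Pr p (hit ends B s)) :
    m * Pr p (hit ends S a) ≤ Pr p (hit ends B a ∩ hit ends S a) ∧
      m * Pr p (hit ends S a) ≤ Pr p (hit ends B a) := by
  classical
  let F : Set V → ℝ := fun C => if ∃ b ∈ B, b ∈ C then 1 else 0
  have hF : Monotone F := by
    intro C D h
    simp only [F]
    split_ifs with h1 h2 <;> norm_num
    exact h2 (h1.imp fun b hb => ⟨hb.1, h hb.2⟩)
  have e : ∀ x w, F (cluster ends w x) = (hit ends B x).indicator (1 : (E → Bool) → ℝ) w :=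
    fun x w => by simp [F, Set.indicator_apply, hit]
  have h1 := gluing_const (ends := ends) hp a S hF (m := m)
    fun s hs => (hm s hs).trans_eq (by simp only [e]; rfl)
  have h2 : Ev p (fun w => (hit ends S a).indicator 1 w * F (cluster ends w a))
      = Pr p (hit ends B a ∩ hit ends S a) := by
    simp only [e, Pr]
    congr 1
    funext w
    by_cases u : w ∈ hit ends S a <;> by_cases v : w ∈ hit ends B a <;> simp [u, v]
  rw [h2] at h1
  refine ⟨h1, h1.trans (Ev_mono hp fun w => ?_)⟩
  by_cases v : w ∈ hit ends B a <;> by_cases u : w ∈ hit ends S a <;> simp [u, v]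

end Vale.Agent.P151.Glue0
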