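import Vale.Agent.P151.Glue0.Basic

/-!
Product-measure toolkit for arbitrary edge weights: conditioning on the outside of a region,
Harris for events, the Markov step, selection among the first hits.
-/

open Finset

namespace Vale.Agent.P151.Glue0

variable {E : Type} [Fintype E] [DecidableEq E] {p : E → ℝ}

/-- A function of the configuration that depends only on the edges in `R`. -/
def Local {α : Type*} (R : Set E) (f : (E → Bool) → α) : Prop :=
  ∀ w w', (∀ e, e ∈ R → w e = w' e) → f w = f w'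

/-- An event that depends only on the edges in `R`. -/
def LocalEv (R : Set E) (A : Set (E → Bool)) : Prop :=
  ∀ w w', (∀ e, e ∈ R → w e = w' e) → (w ∈ A ↔ w' ∈ A)

/-- The configuration equal to `v` in `R` and to `w` outside. -/
noncomputable def mix (R : Set E) (w v : E → Bool) : E → Bool := fun e => by
  classical exact if e ∈ R then v e else w e

/-- All edges of `D` are closed. -/
noncomputable def shut (D : Set E) (w : E → Bool) : E → Bool := fun e => by
  classical exact if e ∈ D then false else w e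

/-- The weights given the configuration `w` outside `R`. -/
noncomputable def fixOut (R : Set E) (w : E → Bool) (p : E → ℝ) : E → ℝ := fun e => by
  classical exact if e ∈ R then p e else if w e then 1 else 0

/-- The weights with all edges of `D` closed. -/
noncomputable def closeW (D : Set E) (p : E → ℝ) : E → ℝ := fun e => by
  classical exact if e ∈ D then 0 else p e

theorem mix_in {R : Set E} (w v : E → Bool) {e : E} (h : e ∈ R) : mix R w v e = v e := by
  simp [mix, h]

theorem mix_out {R : Set E} (w v : E → Bool) {e : E} (h : e ∉ R) : mix R w v e = w e := by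
  simp [mix, h]

theorem mix_mono (R : Set E) {w w' v v' : E → Bool} (hw : w ≤ w') (hv : v ≤ v') :
    mix R w v ≤ mix R w' v' := by
  intro e
  by_cases h : e ∈ R
  · rw [mix_in _ _ h, mix_in _ _ h]; exact hv e
  · rw [mix_out _ _ h, mix_out _ _ h]; exact hw e

theorem fixOut_mem (hp : ∀ e, p e ∈ Set.Icc 0 1) (R : Set E) (w : E → Bool) (e : E) :
    fixOut R w p e ∈ Set.Icc (0 : ℝ) 1 := by
  by_cases h : e ∈ R
  · simp [fixOut, h, (hp e).1, (hp e).2]
  · by_cases h' : w e <;> simp [fixOut, h, h']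

theorem closeW_mem (hp : ∀ e, p e ∈ Set.Icc 0 1) (D : Set E) (e : E) :
    closeW D p e ∈ Set.Icc (0 : ℝ) 1 := by
  by_cases h : e ∈ D
  · simp [closeW, h]
  · simp [closeW, h, (hp e).1, (hp e).2]

/-- The conditional law given the outside of `R` is the law of the glued configuration. -/
theorem Ev_fixOut (R : Set E) (w : E → Bool) (p : E → ℝ) (f : (E → Bool) → ℝ) :
    Ev (fixOut R w p) f = Ev p (fun v => f (mix R w v)) := by
  classical
  have key : ∀ u : E → Bool,
      wgt (fixOut R w p) u = ∑ v, if mix R w v = u then wgt p v else 0 := by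
    intro u
    have h := Fintype.prod_sum (fun e (b : Bool) =>
      if (if e ∈ R then b else w e) = u e then (if b then p e else 1 - p e) else 0)
    have lhs : ∀ e, (∑ b : Bool, if (if e ∈ R then b else w e) = u e then
        (if b then p e else 1 - p e) else 0)
        = if u e then fixOut R w p e else 1 - fixOut R w p e := by
      intro e
      by_cases hR : e ∈ R
      · cases hu : u e <;> simp [fixOut, hR, hu]
      · cases hu : u e <;> cases hw : w e <;> simp [fixOut, hR, hu, hw]
    unfold wgt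
    rw [← Finset.prod_congr rfl fun e _ => lhs e, h]
    refine sum_congr rfl fun v _ => ?_
    by_cases hm : mix R w v = u
    · rw [if_pos hm]
      refine prod_congr rfl fun e _ => ?_
      rw [if_pos]
      rw [← hm]
      simp [mix]
    · rw [if_neg hm]
      obtain ⟨e, he⟩ := Function.ne_iff.1 hm
      refine prod_eq_zero (mem_univ e) ?_
      rw [if_neg]
      simpa [mix] using he
  calc Ev (fixOut R w p) f
      = ∑ u, ∑ v, if mix R w v = u then wgt p v * f u else 0 := by
        unfold Ev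
        refine sum_congr rfl fun u _ => ?_
        rw [key, sum_mul]
        exact sum_congr rfl fun v _ => by split <;> simp
    _ = Ev p (fun v => f (mix R w v)) := by
        rw [sum_comm]
        unfold Ev
        exact sum_congr rfl fun v _ => by simp

/-- Conditioning on the outside of `R`. -/
theorem Ev_tower (R : Set E) (p : E → ℝ) (g f : (E → Bool) → ℝ) (hg : Local Rᶜ g) :
    Ev p (fun w => g w * f w) = Ev p (fun w => g w * Ev (fixOut R w p) f) := by
  classical
  have hmix : ∀ w v : E → Bool,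
      wgt p (mix R w v) * wgt p (mix R v w) = wgt p w * wgt p v := by
    intro w v
    simp only [wgt, ← prod_mul_distrib]
    refine prod_congr rfl fun e _ => ?_
    by_cases h : e ∈ R <;> simp [mix, h, mul_comm]
  let σ : (E → Bool) × (E → Bool) ≃ (E → Bool) × (E → Bool) :=
    { toFun := fun z => (mix R z.1 z.2, mix R z.2 z.1)
      invFun := fun z => (mix R z.1 z.2, mix R z.2 z.1)
      left_inv := fun z => by
        refine Prod.ext ?_ ?_ <;> funext e <;> by_cases h : e ∈ R <;> simp [mix, h]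
      right_inv := fun z => by
        refine Prod.ext ?_ ?_ <;> funext e <;> by_cases h : e ∈ R <;> simp [mix, h] }
  simp only [Ev_fixOut]
  calc Ev p (fun w => g w * f w)
      = ∑ z : (E → Bool) × (E → Bool), wgt p z.1 * wgt p z.2 * (g z.1 * f z.1) := by
        rw [Fintype.sum_prod_type]
        unfold Ev
        refine sum_congr rfl fun w _ => ?_
        simp only
        rw [← sum_mul, ← mul_sum, sum_wgt, mul_one]
    _ = ∑ z : (E → Bool) × (E → Bool), wgt p z.1 * wgt p z.2 * (g z.1 * f (mix R z.1 z.2)) := by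
        refine (Fintype.sum_equiv σ _ _ fun z => ?_).symm
        change _ = wgt p (mix R z.1 z.2) * wgt p (mix R z.2 z.1)
          * (g (mix R z.1 z.2) * f (mix R z.1 z.2))
        rw [hmix, hg (mix R z.1 z.2) z.1 fun e he => mix_out _ _ he]
    _ = Ev p (fun w => g w * Ev p (fun v => f (mix R w v))) := by
        rw [Fintype.sum_prod_type]
        unfold Ev
        refine sum_congr rfl fun w _ => ?_
        simp only
        rw [mul_sum, mul_sum]
        exact sum_congr rfl fun v _ => by ring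

theorem Ev_closeW (D : Set E) (p : E → ℝ) (f : (E → Bool) → ℝ) :
    Ev (closeW D p) f = Ev p (fun v => f (shut D v)) := by
  have h := Ev_fixOut Dᶜ (fun _ => false) p f
  have e1 : fixOut Dᶜ (fun _ => false) p = closeW D p := by
    funext e
    by_cases he : e ∈ D <;> simp [fixOut, closeW, he]
  have e2 : ∀ v, mix Dᶜ (fun _ => false) v = shut D v := fun v => by
    funext e
    by_cases he : e ∈ D <;> simp [mix, shut, he]
  simpa only [e1, e2] using h

/-! ### Events -/

theorem Pr_nonneg (hp : ∀ e, p e ∈ Set.Icc 0 1) (A : Set (E → Bool)) : 0 ≤ Pr p A :=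
  Ev_nonneg hp fun _ => Set.indicator_nonneg (fun _ _ => zero_le_one) _

theorem Pr_mono (hp : ∀ e, p e ∈ Set.Icc 0 1) {A B : Set (E → Bool)} (h : A ⊆ B) :
    Pr p A ≤ Pr p B :=
  Ev_mono hp fun w => Set.indicator_le_indicator_of_subset h (fun _ => zero_le_one) w

theorem Pr_univ (p : E → ℝ) : Pr p (Set.univ : Set (E → Bool)) = 1 := by
  rw [Pr, Set.indicator_univ]; exact Ev_const p 1

theorem Pr_le_one (hp : ∀ e, p e ∈ Set.Icc 0 1) (A : Set (E → Bool)) : Pr p A ≤ 1 :=
  (Pr_mono hp (Set.subset_univ A)).trans_eq (Pr_univ p)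

theorem Pr_compl (p : E → ℝ) (A : Set (E → Bool)) : Pr p Aᶜ = 1 - Pr p A := by
  rw [Pr, Pr, ← Ev_const p (1 : ℝ), ← Ev_sub]
  congr 1
  funext w
  by_cases h : w ∈ A <;> simp [h]

theorem Pr_union_le (hp : ∀ e, p e ∈ Set.Icc 0 1) (A B : Set (E → Bool)) :
    Pr p (A ∪ B) ≤ Pr p A + Pr p B := by
  rw [Pr, Pr, Pr, ← Ev_add]
  refine Ev_mono hp fun w => ?_
  by_cases ha : w ∈ A <;> by_cases hb : w ∈ B <;> simp [ha, hb]

theorem Pr_biUnion_le {ι : Type*} (hp : ∀ e, p e ∈ Set.Icc 0 1) (s : Finset ι)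
    (A : ι → Set (E → Bool)) : Pr p (⋃ i ∈ s, A i) ≤ ∑ i ∈ s, Pr p (A i) := by
  simp only [Pr, ← Ev_sum]
  refine Ev_mono hp fun w => ?_
  by_cases h : w ∈ ⋃ i ∈ s, A i
  · rw [Set.indicator_of_mem h, Pi.one_apply]
    simp only [Set.mem_iUnion] at h
    obtain ⟨i, hi, hw⟩ := h
    refine le_trans ?_ (single_le_sum (f := fun i => (A i).indicator (1 : (E → Bool) → ℝ) w)
      (fun j _ => Set.indicator_nonneg (fun _ _ => zero_le_one) _) hi)
    simp [hw]
  · rw [Set.indicator_of_notMem h]
    exact sum_nonneg fun j _ => Set.indicator_nonneg (fun _ _ => zero_le_one) _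

theorem indicator_monotone {A : Set (E → Bool)} (hA : IsUpperSet A) :
    Monotone (A.indicator (1 : (E → Bool) → ℝ)) := fun w w' h => by
  by_cases hw : w ∈ A
  · simp [hw, hA h hw]
  · simp only [Set.indicator_of_notMem hw]
    exact Set.indicator_nonneg (fun _ _ => zero_le_one) _

theorem indicator_inter_mul (A B : Set (E → Bool)) (w : E → Bool) :
    (A ∩ B).indicator (1 : (E → Bool) → ℝ) w = A.indicator 1 w * B.indicator 1 w :=
  congrFun (Set.inter_indicator_one (s := A) (t := B)) w

/-- Harris for two increasing events. -/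
theorem Pr_harris (hp : ∀ e, p e ∈ Set.Icc 0 1) {A B : Set (E → Bool)} (hA : IsUpperSet A)
    (hB : IsUpperSet B) : Pr p A * Pr p B ≤ Pr p (A ∩ B) := by
  simp only [Pr, funext (indicator_inter_mul A B)]
  exact harris hp (fun _ => Set.indicator_nonneg (fun _ _ => zero_le_one) _)
    (fun _ => Set.indicator_nonneg (fun _ _ => zero_le_one) _)
    (indicator_monotone hA) (indicator_monotone hB)

/-- Harris for an increasing and a decreasing event. -/
theorem Pr_harris_anti (hp : ∀ e, p e ∈ Set.Icc 0 1) {A D : Set (E → Bool)} (hA : IsUpperSet A)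
    (hD : IsLowerSet D) : Pr p (A ∩ D) ≤ Pr p A * Pr p D := by
  have h := Pr_harris hp hA hD.compl
  have hsum : Pr p (A ∩ D) + Pr p (A ∩ Dᶜ) = Pr p A := by
    simp only [Pr, ← Ev_add]
    congr 1
    funext w
    by_cases h1 : w ∈ A <;> by_cases h2 : w ∈ D <;> simp [h1, h2]
  rw [Pr_compl, mul_sub, mul_one] at h
  linarith

theorem LocalEv.indicator {R : Set E} {A : Set (E → Bool)} (h : LocalEv R A) :
    Local R (A.indicator (1 : (E → Bool) → ℝ)) := fun w w' hw => by
  by_cases hA : w ∈ A
  · simp [hA, (h w w' hw).1 hA]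
  · simp [hA, mt (h w w' hw).2 hA]

theorem LocalEv.mono {R R' : Set E} {A : Set (E → Bool)} (h : LocalEv R A) (hR : R ⊆ R') :
    LocalEv R' A := fun w w' hw => h w w' fun e he => hw e (hR he)

theorem LocalEv.compl {R : Set E} {A : Set (E → Bool)} (h : LocalEv R A) : LocalEv R Aᶜ :=
  fun w w' hw => not_congr (h w w' hw)

theorem LocalEv.inter {R : Set E} {A B : Set (E → Bool)} (hA : LocalEv R A) (hB : LocalEv R B) :
    LocalEv R (A ∩ B) := fun w w' hw => and_congr (hA w w' hw) (hB w w' hw)

/-- Independence of events on disjoint sets of edges. -/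
theorem Pr_inter_indep {R R' : Set E} (hd : Disjoint R R') {A B : Set (E → Bool)}
    (hA : LocalEv R A) (hB : LocalEv R' B) : Pr p (A ∩ B) = Pr p A * Pr p B := by
  simp only [Pr, funext (indicator_inter_mul A B)]
  exact Ev_mul_of_indep (fun e => e ∈ R) _ _ (fun w w' h => hA.indicator w w' h)
    fun w w' h => hB.indicator w w' fun e he => h e (Set.disjoint_right.1 hd he)

/-- The conditional probability given the outside of `R`. -/
noncomputable def prOut (R : Set E) (p : E → ℝ) (A : Set (E → Bool)) (w : E → Bool) : ℝ :=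
  Pr (fixOut R w p) A

theorem prOut_eq (R : Set E) (p : E → ℝ) (A : Set (E → Bool)) (w : E → Bool) :
    prOut R p A w = Pr p {v | mix R w v ∈ A} := by
  rw [prOut, Pr, Ev_fixOut]
  rfl

theorem prOut_local (R : Set E) (p : E → ℝ) (A : Set (E → Bool)) : Local Rᶜ (prOut R p A) := by
  intro w w' h
  have : ∀ v, mix R w v = mix R w' v := fun v => by
    funext e
    by_cases he : e ∈ R
    · simp [mix, he]
    · simp [mix, he, h e he]
  simp only [prOut_eq, this]

theorem prOut_anti (hp : ∀ e, p e ∈ Set.Icc 0 1) (R : Set E) {D : Set (E → Bool)}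
    (hD : IsLowerSet D) : Antitone (prOut R p D) := fun w w' h => by
  simp only [prOut_eq]
  exact Pr_mono hp fun v hv => hD (mix_mono R h le_rfl) hv

theorem prOut_mono (hp : ∀ e, p e ∈ Set.Icc 0 1) (R : Set E) {A : Set (E → Bool)}
    (hA : IsUpperSet A) : Monotone (prOut R p A) := fun w w' h => by
  simp only [prOut_eq]
  exact Pr_mono hp fun v hv => hA (mix_mono R h le_rfl) hv

/-- Conditioning an event on the outside of `R`. -/
theorem Pr_inter_tower (R : Set E) (p : E → ℝ) {Y : Set (E → Bool)} (hY : LocalEv Rᶜ Y)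
    (A : Set (E → Bool)) :
    Pr p (Y ∩ A) = Ev p (fun w => Y.indicator 1 w * prOut R p A w) := by
  rw [Pr, funext (indicator_inter_mul Y A)]
  exact Ev_tower R p _ _ hY.indicator

/-- A bound for every outside configuration of `R` in `Y` multiplies with the law of `Y`. -/
theorem Pr_inter_le_mul (hp : ∀ e, p e ∈ Set.Icc 0 1) (R : Set E) {Y X : Set (E → Bool)}
    (hY : LocalEv Rᶜ Y) {c : ℝ} (h : ∀ w ∈ Y, Pr (fixOut R w p) X ≤ c) :
    Pr p (Y ∩ X) ≤ c * Pr p Y := by
  rw [Pr_inter_tower R p hY, Pr, ← Ev_const_mul]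
  refine Ev_mono hp fun w => ?_
  by_cases hw : w ∈ Y
  · simp only [Set.indicator_of_mem hw, Pi.one_apply, one_mul, mul_one]
    exact h w hw
  · simp [hw]

/-- The squaring step for two disjoint lanes. -/
theorem Pr_two_lanes (hp : ∀ e, p e ∈ Set.Icc 0 1) (R : Set E) {X Y Z : Set (E → Bool)}
    (hY : LocalEv Rᶜ Y) (hZ : Z ⊆ Y ∩ X) {c c' : ℝ} (hc : 0 ≤ c)
    (hX : ∀ w ∈ Y, Pr (fixOut R w p) X ≤ c) (hY' : Pr p Y ≤ c') :
    Pr p Z ≤ c * c' :=
  (Pr_mono hp hZ).trans ((Pr_inter_le_mul hp R hY hX).trans (mul_le_mul_of_nonneg_left hY' hc))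

/-- The event that an event holds after closing the edges of `D`. -/
def whenShut (D : Set E) (A : Set (E → Bool)) : Set (E → Bool) := {w | shut D w ∈ A}

theorem localEv_whenShut (D : Set E) (A : Set (E → Bool)) : LocalEv Dᶜ (whenShut D A) := by
  intro w w' h
  have : shut D w = shut D w' := by
    funext e
    by_cases he : e ∈ D
    · simp [shut, he]
    · simp [shut, he, h e he]
  simp [whenShut, this]

theorem Pr_closeW (D : Set E) (p : E → ℝ) (A : Set (E → Bool)) :
    Pr (closeW D p) A = Pr p (whenShut D A) := by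
  rw [Pr, Ev_closeW]
  rfl

theorem shut_le (D : Set E) (w : E → Bool) : shut D w ≤ w := fun e => by
  by_cases he : e ∈ D <;> simp [shut, he]

theorem whenShut_subset {D : Set E} {A : Set (E → Bool)} (hA : IsUpperSet A) :
    whenShut D A ⊆ A := fun w hw => hA (shut_le D w) hw

/-- Markov. -/
theorem mul_Pr_le_Ev (hp : ∀ e, p e ∈ Set.Icc 0 1) {f : (E → Bool) → ℝ} (hf : ∀ w, 0 ≤ f w)
    (a : ℝ) : a * Pr p {w | a < f w} ≤ Ev p f := by
  rw [Pr, ← Ev_const_mul]
  refine Ev_mono hp fun w => ?_
  by_cases h : a < f w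
  · simp [Set.indicator, h, h.le]
  · simp [Set.indicator, h, hf w]

/-- The outside configurations of `R` given which the failure `F` is likely. -/
noncomputable def badOut (R : Set E) (p : E → ℝ) (a : ℝ) (F : Set (E → Bool)) :
    Set (E → Bool) := {w | a < prOut R p F w}

theorem badOut_local (R : Set E) (p : E → ℝ) (a : ℝ) (F : Set (E → Bool)) :
    LocalEv Rᶜ (badOut R p a F) := fun w w' h => by
  simp [badOut, prOut_local R p F w w' h]

theorem badOut_lower (hp : ∀ e, p e ∈ Set.Icc 0 1) (R : Set E) (a : ℝ) {F : Set (E → Bool)}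
    (hF : IsLowerSet F) : IsLowerSet (badOut R p a F) := fun w w' h hw =>
  lt_of_lt_of_le hw (prOut_anti hp R hF h)

/-- The Markov step: an open seed is rarely bad. -/
theorem Pr_badOut_le (hp : ∀ e, p e ∈ Set.Icc 0 1) (R : Set E) {O F : Set (E → Bool)}
    (hO : IsUpperSet O) (hOl : LocalEv Rᶜ O) (hF : IsLowerSet F) {a ε : ℝ} (ha : 0 < a)
    (hε : Pr p F ≤ ε) : Pr p (O ∩ badOut R p a F) ≤ ε / a * Pr p O := by
  have h2 : Pr p (O ∩ F) ≤ ε * Pr p O :=
    (Pr_harris_anti hp hO hF).trans (by
      rw [mul_comm]; exact mul_le_mul_of_nonneg_right hε (Pr_nonneg hp O))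
  rw [Pr_inter_tower R p hOl] at h2
  have h1 : a * Pr p (O ∩ badOut R p a F)
      ≤ Ev p (fun w => O.indicator 1 w * prOut R p F w) := by
    rw [Pr, ← Ev_const_mul]
    refine Ev_mono hp fun w => ?_
    rw [indicator_inter_mul]
    by_cases hO' : w ∈ O
    · by_cases hb : w ∈ badOut R p a F
      · simp only [Set.indicator_of_mem hO', Set.indicator_of_mem hb, Pi.one_apply, one_mul,
          mul_one]
        exact le_of_lt hb
      · simp [hb, hO', prOut, Pr_nonneg (fixOut_mem hp R w)]
    · simp [hO']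
  rw [div_mul_eq_mul_div, le_div_iff₀ ha, mul_comm]
  exact h1.trans h2

/-- Independent events all fail. -/
theorem Pr_none_le {ι : Type*} (hp : ∀ e, p e ∈ Set.Icc 0 1) (T : Finset ι) (O : ι → Set (E → Bool))
    (supp : ι → Set E) (hO : ∀ i ∈ T, LocalEv (supp i) (O i))
    (hd : (T : Set ι).PairwiseDisjoint supp) {π : ℝ} (hπ : ∀ i ∈ T, π ≤ Pr p (O i))
    (hπ1 : π ≤ 1) : Pr p {w | ∀ i ∈ T, w ∉ O i} ≤ (1 - π) ^ T.card := by
  classical
  induction T using Finset.induction with
  | empty => simp [Pr_univ]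
  | @insert a T ha IH =>
    have hset : {w | ∀ i ∈ insert a T, w ∉ O i} = (O a)ᶜ ∩ {w | ∀ i ∈ T, w ∉ O i} := by
      ext w; simp
    have hloc : LocalEv (⋃ i ∈ T, supp i) {w | ∀ i ∈ T, w ∉ O i} := by
      intro w w' h
      refine forall₂_congr fun i hi => not_congr (hO i (mem_insert_of_mem hi) w w' fun e he => ?_)
      exact h e (Set.mem_biUnion hi he)
    have hdisj : Disjoint (supp a) (⋃ i ∈ T, supp i) := by
      simp only [Set.disjoint_iUnion_right]
      intro i hi
      exact hd (by simp) (by simp [hi]) fun e => ha (e ▸ hi)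
    rw [hset, Pr_inter_indep hdisj (hO a (mem_insert_self a T)).compl hloc, Pr_compl,
      card_insert_of_notMem ha, pow_succ']
    refine mul_le_mul (by linarith [hπ a (mem_insert_self a T)])
      (IH (fun i hi => hO i (mem_insert_of_mem hi))
        (hd.subset (by simp)) fun i hi => hπ i (mem_insert_of_mem hi))
      (Pr_nonneg hp _) (by linarith)

/-- Selection among the first hits: the hit set is seen outside `R`, the seeds inside `R`. -/
theorem Pr_first_select {ι : Type*} (hp : ∀ e, p e ∈ Set.Icc 0 1) (R : Set E)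
    (H : (E → Bool) → Finset ι) (hH : Local Rᶜ H) (U : Finset ι) (hHU : ∀ w, H w ⊆ U)
    (supp : ι → Set E) (hR : ∀ i ∈ U, supp i ⊆ R) (hd : (U : Set ι).PairwiseDisjoint supp)
    (O B : ι → Set (E → Bool)) (hO : ∀ i ∈ U, LocalEv (supp i) (O i))
    (hB : ∀ i ∈ U, LocalEv R (B i)) {π β : ℝ} (hπ : ∀ i ∈ U, π ≤ Pr p (O i)) (hπ1 : π ≤ 1)
    (hβ : ∀ i ∈ U, Pr p (O i ∩ B i) ≤ β) (hβ0 : 0 ≤ β) (M : ℕ) :
    Pr p {w | M ≤ (H w).card ∧ ∀ i ∈ H w, w ∈ O i → w ∈ B i}
      ≤ (1 - π) ^ M + M * β := by
  classical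
  set K := (1 - π) ^ M + M * β
  have hK : 0 ≤ K := add_nonneg (pow_nonneg (by linarith) _) (mul_nonneg (Nat.cast_nonneg _) hβ0)
  have hY : LocalEv Rᶜ {w | M ≤ (H w).card} := fun w w' h => by
    show M ≤ (H w).card ↔ M ≤ (H w').card
    rw [hH w w' h]
  have hsub : {w | M ≤ (H w).card ∧ ∀ i ∈ H w, w ∈ O i → w ∈ B i}
      = {w | M ≤ (H w).card} ∩ {w | ∀ i ∈ H w, w ∈ O i → w ∈ B i} := rfl
  rw [hsub]
  refine (Pr_inter_le_mul hp R hY (c := K) fun w hw => ?_).trans
    (mul_le_of_le_one_right hK (Pr_le_one hp _))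
  obtain ⟨T, hT, hTc⟩ := exists_subset_card_eq (show M ≤ (H w).card from hw)
  have hTU : ∀ i ∈ T, i ∈ U := fun i hi => hHU w (hT hi)
  have e := prOut_eq R p {w | ∀ i ∈ H w, w ∈ O i → w ∈ B i} w
  rw [prOut] at e
  rw [e]
  refine (Pr_mono hp (B := {v | ∀ i ∈ T, v ∉ O i} ∪ ⋃ i ∈ T, O i ∩ B i) fun v hv => ?_).trans
    ((Pr_union_le hp _ _).trans (add_le_add ?_ ?_))
  · rw [Set.mem_union, or_iff_not_imp_left]
    intro hno
    simp only [Set.mem_ofPred_eq, not_forall, not_not] at hno
    obtain ⟨i, hi, hiO⟩ := hno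
    have hvm : ∀ e, e ∈ R → mix R w v e = v e := fun e he => mix_in _ _ he
    have hHv : H (mix R w v) = H w := hH _ _ fun e he => mix_out _ _ he
    have hv' := hv i (hHv.symm ▸ hT hi)
    have hOi := (hO i (hTU i hi)).mono (hR i (hTU i hi))
    exact Set.mem_biUnion hi ⟨hiO, (hB i (hTU i hi) _ _ hvm).1
      (hv' ((hOi _ _ hvm).2 hiO))⟩
  · exact (Pr_none_le hp T O supp (fun i hi => hO i (hTU i hi))
      (hd.subset fun i hi => hTU i hi) (fun i hi => hπ i (hTU i hi)) hπ1).trans_eq (by rw [hTc])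
  · refine (Pr_biUnion_le hp T _).trans ((sum_le_sum fun i hi => hβ i (hTU i hi)).trans_eq ?_)
    rw [sum_const, hTc, nsmul_eq_mul]

end Vale.Agent.P151.Glue0
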