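import Vale.Agent.P151.Glue0.Main
import Vale.Agent.P151.Glue0.Toolkit

/-!
The gluing step: seeds read off a set `K` of edges, connections avoiding a set `D` of edges,
arbitrary weights elsewhere. Monotonicity in the weights.
-/

open Finset

namespace Vale.Agent.P151.Glue0

variable {V E : Type} [Fintype E] [DecidableEq E] {p q : E → ℝ}

/-- Larger weights give larger expectations of increasing functions. -/
theorem Ev_weights_mono (hp : ∀ e, p e ∈ Set.Icc 0 1) (hq : ∀ e, q e ∈ Set.Icc 0 1)
    (hpq : ∀ e, p e ≤ q e) {f : (E → Bool) → ℝ} (hf : Monotone f) : Ev p f ≤ Ev q f := by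
  classical
  set r : E → ℝ := fun e => (q e - p e) / (1 - p e)
  have hr : ∀ e, r e ∈ Set.Icc (0 : ℝ) 1 := fun e =>
    ⟨div_nonneg (by linarith [hpq e]) (by linarith [(hp e).2]),
      div_le_one_of_le₀ (by linarith [(hq e).2]) (by linarith [(hp e).2])⟩
  have hqr : ∀ e, q e = p e + (1 - p e) * r e := fun e => by
    by_cases h : p e = 1
    · have := hpq e
      have := (hq e).2
      simp only [h] at *
      linarith
    · have h' : 1 - p e ≠ 0 := sub_ne_zero.2 (Ne.symm h)
      simp only [r]
      field_simp
      ring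
  have key : ∀ u : E → Bool, wgt q u
      = ∑ w, ∑ v, if (fun e => w e || v e) = u then wgt p w * wgt r v else 0 := by
    intro u
    let t : E → Bool → Bool → ℝ := fun e b b' => if (b || b') = u e then
      (if b then p e else 1 - p e) * (if b' then r e else 1 - r e) else 0
    have lhs : ∀ e, (if u e then q e else 1 - q e) = ∑ b : Bool, ∑ b' : Bool, t e b b' := by
      intro e
      cases hu : u e <;> simp [t, hu, hqr e] <;> ring
    unfold wgt
    rw [Finset.prod_congr rfl fun e _ => lhs e, Fintype.prod_sum]
    refine sum_congr rfl fun w _ => ?_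
    rw [Fintype.prod_sum]
    refine sum_congr rfl fun v _ => ?_
    by_cases hm : (fun e => w e || v e) = u
    · rw [if_pos hm, ← prod_mul_distrib]
      exact prod_congr rfl fun e _ => if_pos (congrFun hm e)
    · rw [if_neg hm]
      obtain ⟨e, he⟩ := Function.ne_iff.1 hm
      exact prod_eq_zero (mem_univ e) (if_neg he)
  calc Ev p f = ∑ w, ∑ v, wgt p w * wgt r v * f w := by
        unfold Ev
        refine sum_congr rfl fun w _ => ?_
        rw [← sum_mul, ← mul_sum, sum_wgt, mul_one]
    _ ≤ ∑ w, ∑ v, wgt p w * wgt r v * f (fun e => w e || v e) :=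
        sum_le_sum fun w _ => sum_le_sum fun v _ =>
          mul_le_mul_of_nonneg_left (hf fun e => by cases w e <;> simp)
            (mul_nonneg (wgt_nonneg hp w) (wgt_nonneg hr v))
    _ = Ev q f := by
        unfold Ev
        simp only [key, sum_mul, ite_mul, zero_mul]
        conv_rhs => rw [sum_comm]
        refine sum_congr rfl fun w _ => ?_
        conv_rhs => rw [sum_comm]
        exact sum_congr rfl fun v _ => by simp

/-- Larger weights give larger probabilities of increasing events. -/
theorem Pr_weights_mono (hp : ∀ e, p e ∈ Set.Icc 0 1) (hq : ∀ e, q e ∈ Set.Icc 0 1)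
    (hpq : ∀ e, p e ≤ q e) {A : Set (E → Bool)} (hA : IsUpperSet A) : Pr p A ≤ Pr q A :=
  Ev_weights_mono hp hq hpq (indicator_monotone hA)

/-- Larger weights give smaller probabilities of decreasing events. -/
theorem Pr_weights_anti (hp : ∀ e, p e ∈ Set.Icc 0 1) (hq : ∀ e, q e ∈ Set.Icc 0 1)
    (hpq : ∀ e, p e ≤ q e) {A : Set (E → Bool)} (hA : IsLowerSet A) : Pr q A ≤ Pr p A := by
  have := Pr_weights_mono hp hq hpq hA.compl
  rw [Pr_compl, Pr_compl] at this
  linarith

variable (ends : E → V × V)

/-- `a` is joined off `D` to one of the seeds. -/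
def seedHit (D : Set E) (a : V) (S : (E → Bool) → Finset V) : Set (E → Bool) :=
  {w | ∃ s ∈ S w, s ∈ cluster ends (shut D w) a}

variable {ends}

omit [Fintype E] [DecidableEq E] in
theorem shut_mono (D : Set E) {w w' : E → Bool} (h : w ≤ w') : shut D w ≤ shut D w' := fun e => by
  by_cases he : e ∈ D <;> simp [shut, he, h e]

omit [Fintype E] [DecidableEq E] in
theorem seedHit_upper (D : Set E) (a : V) {S : (E → Bool) → Finset V}
    (hS : ∀ w w', w ≤ w' → S w ⊆ S w') : IsUpperSet (seedHit ends D a S) :=
  fun w w' h ⟨s, hs, hs'⟩ =>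
    ⟨s, hS w w' h hs, cluster_mono (shut_mono D h) a hs'⟩

omit [Fintype E] [DecidableEq E] in
theorem shut_eq_of_agree {D : Set E} {w w' : E → Bool} (h : ∀ e, e ∈ Dᶜ → w e = w' e) :
    shut D w = shut D w' := funext fun e => by
  by_cases he : e ∈ D
  · simp [shut, he]
  · simp [shut, he, h e he]

omit [Fintype E] [DecidableEq E] in
theorem seedHit_local (D K : Set E) (a : V) {S : (E → Bool) → Finset V} (hS : Local K S) :
    LocalEv (Dᶜ ∪ K) (seedHit ends D a S) := fun w w' h => by
  simp only [seedHit, Set.mem_ofPred_eq, hS w w' fun e he => h e (Or.inr he),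
    shut_eq_of_agree (D := D) fun e he => h e (Or.inl he)]

variable [Fintype V] [DecidableEq V]

/-- The gluing step with seeds depending on the edges in `K`. -/
theorem glue_step (hp : ∀ e, p e ∈ Set.Icc 0 1) (D K : Set E) (a : V)
    (S : (E → Bool) → Finset V) (hS : Local K S) {F ψ : Set V → ℝ} (hF : Monotone F)
    (hψ : ∀ w C, ∀ s ∈ S w, s ∈ C →
      ψ C ≤ Ev (fixOut Kᶜ w p) (fun v => F (cluster ends (shut D v) s))) :
    Ev p (fun w => (seedHit ends D a S).indicator 1 w * ψ (cluster ends (shut D w) a))
      ≤ Ev p (fun w => (seedHit ends D a S).indicator 1 w * F (cluster ends (shut D w) a)) := by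
  classical
  have tower : ∀ f : (E → Bool) → ℝ, Ev p f = Ev p (fun w => Ev (fixOut Kᶜ w p) f) := fun f => by
    simpa using Ev_tower Kᶜ p (fun _ => 1) f (fun _ _ _ => rfl)
  have fib : ∀ (w : E → Bool) (G : Set V → ℝ),
      Ev (fixOut Kᶜ w p)
          (fun v => (seedHit ends D a S).indicator 1 v * G (cluster ends (shut D v) a))
        = Ev (closeW D (fixOut Kᶜ w p))
          (fun v => (hit ends (S w) a).indicator 1 v * G (cluster ends v a)) := by
    intro w G
    simp only [Ev_closeW, Ev_fixOut]
    congr 1
    funext v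
    have hSv : S (mix Kᶜ w v) = S w :=
      hS _ _ fun e he => mix_out _ _ (not_not_intro he)
    congr 1
    simp [Set.indicator_apply, seedHit, hit, hSv]
  rw [tower, tower (fun w => _ * F _)]
  refine Ev_mono hp fun w => ?_
  rw [fib, fib]
  refine gluing (closeW_mem (fixOut_mem hp _ w) D) a (S w) hF fun C s hs hC => ?_
  rw [Ev_closeW]
  exact hψ w C s hs hC

/-- If every seed succeeds with probability `1 - c` given the states in `K`, then `a` joined to
a seed and not successful has probability at most `c` times that of being joined to a seed. -/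
theorem glue_fail (hp : ∀ e, p e ∈ Set.Icc 0 1) (D K : Set E) (a : V)
    (S : (E → Bool) → Finset V) (hS : Local K S) {Good : Set (Set V)} (hG : IsUpperSet Good)
    {c : ℝ} (hgood : ∀ w, ∀ s ∈ S w,
      Pr (fixOut Kᶜ w p) {v | cluster ends (shut D v) s ∉ Good} ≤ c) :
    Pr p {w | w ∈ seedHit ends D a S ∧ cluster ends (shut D w) a ∉ Good}
      ≤ c * Pr p (seedHit ends D a S) := by
  classical
  have hF : Monotone (Good.indicator (1 : Set V → ℝ)) := fun C C' h => by
    by_cases hC : C ∈ Good
    · simp [hC, hG h hC]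
    · simp only [Set.indicator_of_notMem hC]
      exact Set.indicator_nonneg (fun _ _ => zero_le_one) _
  have h1 := glue_step (ends := ends) hp D K a S hS hF (ψ := fun _ => 1 - c) fun w C s hs _ => by
    have e : Ev (fixOut Kᶜ w p) (fun v => Good.indicator (1 : Set V → ℝ)
        (cluster ends (shut D v) s))
        = 1 - Pr (fixOut Kᶜ w p) {v | cluster ends (shut D v) s ∉ Good} := by
      rw [← Pr_compl, Pr]
      congr 1
      funext v
      simp [Set.indicator_apply]
    rw [e]
    linarith [hgood w s hs]
  have e2 : Pr p {w | w ∈ seedHit ends D a S ∧ cluster ends (shut D w) a ∉ Good}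
      = Ev p (fun w => (seedHit ends D a S).indicator 1 w * 1)
        - Ev p (fun w => (seedHit ends D a S).indicator 1 w
          * Good.indicator 1 (cluster ends (shut D w) a)) := by
    rw [← Ev_sub, Pr]
    congr 1
    funext w
    by_cases h : w ∈ seedHit ends D a S <;>
      by_cases h' : cluster ends (shut D w) a ∈ Good <;> simp [h, h']
  have e3 : Ev p (fun w => (seedHit ends D a S).indicator 1 w * (1 - c))
      = (1 - c) * Pr p (seedHit ends D a S) := by
    rw [Pr, ← Ev_const_mul]
    simp only [mul_comm (1 - c)]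
  simp only [mul_one] at e2
  rw [e3] at h1
  rw [e2]
  unfold Pr at *
  linarith

/-- The weakened form of `glue_fail`. -/
theorem glue_fail_le (hp : ∀ e, p e ∈ Set.Icc 0 1) (D K : Set E) (a : V)
    (S : (E → Bool) → Finset V) (hS : Local K S) {Good : Set (Set V)} (hG : IsUpperSet Good)
    {c : ℝ} (hc : 0 ≤ c) (hgood : ∀ w, ∀ s ∈ S w,
      Pr (fixOut Kᶜ w p) {v | cluster ends (shut D v) s ∉ Good} ≤ c) :
    Pr p {w | w ∈ seedHit ends D a S ∧ cluster ends (shut D w) a ∉ Good} ≤ c :=
  (glue_fail hp D K a S hS hG hgood).trans (mul_le_of_le_one_right hc (Pr_le_one hp _))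

end Vale.Agent.P151.Glue0
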